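import Vale.Agent.P216.H971B.EtaL
import Vale.Agent.P216.Ch2.D246.Dim
import Mathlib.Geometry.Manifold.Instances.Sphere

/-!
# P216-B, row R4: `etaL` is exact on the closed geodesics of one length

The closed geodesics of length `a` are finitely many circles `b ↦ (t ↦ c_j (± a t + b))`.
-/

set_option linter.all false

open Set Vale.Agent.P216.H494 Vale.Agent.P216.L250

namespace Vale.Agent.P216.H313B

open Vale.Agent.P216.Sl Vale.Agent.P216.N929 Vale.Agent.P216.H971B
open Vale.Agent.P216.H494 (GeoList)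

section Circ

variable {k : Type} [Field k]

/-- pulling back along a continuous map of compact spaces -/
theorem exL_pull {X Y : Type} [PseudoMetricSpace X] [CompactSpace X] [PseudoMetricSpace Y]
    {F : X → Y} (hF : Continuous F) {n : ℕ} {f : List Y → k} (hf : ExL univ n f) :
    ExL univ n fun l => f (l.map F) := by
  obtain ⟨g, hg, ε, hε, h⟩ := hf
  obtain ⟨δ, hδ, h'⟩ := Metric.uniformContinuous_iff.1
    (CompactSpace.uniformContinuous_of_continuous hF) ε hε
  refine ⟨fun l => g (l.map F), fun h0 l => hg h0 _, δ, hδ, fun l hl hs => ?_⟩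
  rw [N929.dl_map]
  refine h _ (by rw [List.length_map, hl]) ⟨fun y hy => mem_univ _, fun y hy y' hy' => ?_⟩
  obtain ⟨x, hx, rfl⟩ := List.mem_map.1 hy
  obtain ⟨x', hx', rfl⟩ := List.mem_map.1 hy'
  exact h' (hs.2 x hx x' hx')

theorem cocL_pull {X Y : Type} [PseudoMetricSpace X] [CompactSpace X] [PseudoMetricSpace Y]
    {F : X → Y} (hF : Continuous F) {n : ℕ} {f : List Y → k} (hf : CocL univ n f) :
    CocL univ n fun l => f (l.map F) := by
  obtain ⟨ε, hε, h⟩ := hf
  obtain ⟨δ, hδ, h'⟩ := Metric.uniformContinuous_iff.1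
    (CompactSpace.uniformContinuous_of_continuous hF) ε hε
  refine ⟨δ, hδ, fun l hl hs => ?_⟩
  rw [N929.dl_map]
  refine h _ (by rw [List.length_map, hl]) ⟨fun y hy => mem_univ _, fun y hy y' hy' => ?_⟩
  obtain ⟨x, hx, rfl⟩ := List.mem_map.1 hy
  obtain ⟨x', hx', rfl⟩ := List.mem_map.1 hy'
  exact h' (hs.2 x hx x' hx')

/-- no cohomology above degree one on a circle -/
theorem exL_addCircle {ℓ : ℝ} [Fact (0 < ℓ)] {n : ℕ} (hn : 1 < n) {f : List (AddCircle ℓ) → k}
    (hf : CocL univ n f) : ExL univ n f := by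
  have hℓ : ℓ ≠ 0 := (Fact.out : 0 < ℓ).ne'
  set h := AddCircle.homeomorphCircle hℓ with hh
  have h1 : CocL (univ : Set Circle) n fun l => f (l.map h.symm) :=
    cocL_pull h.symm.continuous hf
  have h2 : ExL (univ : Set Circle) n fun l => f (l.map h.symm) :=
    Ch2.D246.exL_above_mfd (E := EuclideanSpace ℝ (Fin 1)) (Ch2.ok k)
      (by simp) le_rfl hn h1
  have h3 := exL_pull h.continuous h2
  refine (congrArg (ExL univ n) ?_).mp h3
  funext l
  rw [List.map_map]
  congr 1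
  have : (h.symm ∘ h : AddCircle ℓ → AddCircle ℓ) = id := by
    funext x
    simp
  rw [this, List.map_id]

end Circ

section Glue

variable {k : Type} [Field k] {E ι : Type} [PseudoMetricSpace E] [Finite ι]

/-- exactness on a finite union of separated compact sets -/
theorem exL_iUnion {K : ι → Set E} (hK : ∀ i, IsCompact (K i)) (hc : ∀ i, IsClosed (K i))
    (hd : ∀ i j, i ≠ j → Disjoint (K i) (K j)) {q : ℕ} (hq : 1 ≤ q) {f : List E → k}
    (h : ∀ i, ExL (K i) q f) : ExL (⋃ i, K i) q f := by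
  classical
  have h1 : ∀ p : ι × ι, ∃ δ > 0, p.1 ≠ p.2 → ∀ x ∈ K p.1, ∀ y ∈ K p.2, δ ≤ dist x y := by
    rintro ⟨i, j⟩
    by_cases hij : i = j
    · exact ⟨1, one_pos, fun h => absurd hij h⟩
    · obtain ⟨δ, hδ, hdis⟩ := (hd i j hij).exists_thickenings (hK i) (hc j)
      refine ⟨δ, hδ, fun _ x hx y hy => ?_⟩
      by_contra hlt
      push Not at hlt
      exact Set.disjoint_left.1 hdis (Metric.mem_thickening_iff.2 ⟨x, hx, by rwa [dist_comm]⟩)
        (Metric.self_subset_thickening hδ _ hy)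
  choose D hD0 hD using h1
  choose g hg ε hε he using h
  obtain ⟨r, hr, hrD⟩ : ∃ r > 0, ∀ p, r ≤ D p := by
    rcases isEmpty_or_nonempty (ι × ι) with hE | hE
    · exact ⟨1, one_pos, fun p => (hE.false p).elim⟩
    · obtain ⟨p, hp⟩ := Finite.exists_min D
      exact ⟨D p, hD0 p, hp⟩
  obtain ⟨s, hs, hsε⟩ : ∃ s > 0, ∀ i, s ≤ ε i := by
    rcases isEmpty_or_nonempty ι with hE | hE
    · exact ⟨1, one_pos, fun p => (hE.false p).elim⟩
    · obtain ⟨p, hp⟩ := Finite.exists_min ε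
      exact ⟨ε p, hε p, hp⟩
  let G : List E → k := fun l => match l with
    | [] => 0
    | x :: l => if hx : ∃ i, x ∈ K i then g hx.choose (x :: l) else 0
  have hG : ∀ i x, x ∈ K i → ∀ l, G (x :: l) = g i (x :: l) := by
    intro i x hx l
    have hx' : ∃ i, x ∈ K i := ⟨i, hx⟩
    have e : hx'.choose = i := by
      by_contra hne
      exact Set.disjoint_left.1 (hd _ _ hne) hx'.choose_spec hx
    change (if hx : ∃ i, x ∈ K i then g hx.choose (x :: l) else 0) = _
    rw [dif_pos hx', e]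
  refine ⟨G, fun h0 => absurd h0 (by omega), min r s, lt_min hr hs, fun l hl hsm => ?_⟩
  obtain ⟨x, l, rfl⟩ : ∃ x l', l = x :: l' := by
    rcases l with _ | ⟨x, l⟩
    · simp at hl
    · exact ⟨x, l, rfl⟩
  obtain ⟨i, hi⟩ := mem_iUnion.1 (hsm.1 x List.mem_cons_self)
  have hall : ∀ y ∈ x :: l, y ∈ K i := by
    intro y hy
    obtain ⟨j, hj⟩ := mem_iUnion.1 (hsm.1 y hy)
    by_cases hij : i = j
    · rwa [hij]
    · have h2 := hD (i, j) hij x hi y hj
      have h3 := hsm.2 x List.mem_cons_self y hy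
      have h4 := hrD (i, j)
      exact absurd (h2.trans_lt (h3.trans_le (min_le_left _ _))) (not_lt.2 h4)
  rw [he i (x :: l) hl ⟨hall, fun y hy z hz =>
    (hsm.2 y hy z hz).trans_le ((min_le_right _ _).trans (hsε i))⟩]
  refine N929.dl_congr fun l' h1 h2 => ?_
  rcases l' with _ | ⟨y, l'⟩
  · simp only [List.length_nil, List.length_cons] at h1 hl
    omega
  · exact (hG i y (hall y (h2 y List.mem_cons_self)) l').symm

end Glue

section One

variable {M : Type} [MetricSpace M] {k : Type} [Field k]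

/-- The loops of length `a` along `c`. -/
def Kc (c : ℝ → M) (e a : ℝ) : Set (LM M) := {g | ∃ b : ℝ, ∀ t, fn g t = c (e * a * t + b)}

/-- The circle of loops. -/
theorem exists_psi {ℓ a : ℝ} [Fact (0 < ℓ)] (ha : 0 < a) {c : ℝ → M} (hc : Continuous c)
    (hper : Function.Periodic c ℓ) (hprime : ∀ p, Function.Periodic c p → ∃ m : ℤ, p = m * ℓ)
    {e : ℝ} (he : e = 1 ∨ e = -1) (hne : (Kc c e a).Nonempty) :
    ∃ (C : AddCircle ℓ → M) (Ψ : AddCircle ℓ → LM M), Continuous C ∧ Continuous Ψ ∧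
      Function.Injective Ψ ∧ ((e * a : ℝ) : AddCircle ℓ) = 0 ∧
      (∀ θ t, fn (Ψ θ) t = C (θ + ((e * a * t : ℝ) : AddCircle ℓ))) ∧ range Ψ = Kc c e a := by
  have hea : e * a ≠ 0 := by
    rcases he with rfl | rfl
    · simpa using ha.ne'
    · simpa using ha.ne'
  -- `e a` is a period
  have hpa : Function.Periodic c (e * a) := by
    obtain ⟨g, b, hb⟩ := hne
    intro u
    have h1 := fn_periodic g ((u - b) / (e * a))
    rw [hb, hb] at h1
    have e0 : e * a * ((u - b) / (e * a)) = u - b := mul_div_cancel₀ _ hea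
    rw [show e * a * ((u - b) / (e * a) + 1) + b = u + e * a by rw [mul_add, e0]; ring,
      show e * a * ((u - b) / (e * a)) + b = u by rw [e0]; ring] at h1
    exact h1
  obtain ⟨m, hm⟩ := hprime _ hpa
  have hzm : ∀ n : ℤ, ((n * ℓ : ℝ) : AddCircle ℓ) = 0 := by
    intro n
    have := AddCircle.coe_zsmul (p := ℓ) (x := ℓ) (n := n)
    rw [AddCircle.coe_period, smul_zero] at this
    rwa [zsmul_eq_mul] at this
  have hz : ((e * a : ℝ) : AddCircle ℓ) = 0 := by rw [hm, hzm]
  let C : AddCircle ℓ → M := hper.lift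
  have hC : Continuous C := continuous_quot_lift _ hc
  have hCc : ∀ t : ℝ, C (t : AddCircle ℓ) = c t := fun t => rfl
  have hh1 : Function.Periodic (fun t : ℝ => ((e * a * t : ℝ) : AddCircle ℓ)) 1 := by
    intro t
    change ((e * a * (t + 1) : ℝ) : AddCircle ℓ) = _
    rw [mul_add, mul_one, AddCircle.coe_add, hz, add_zero]
  have hh2 : Continuous fun t : ℝ => ((e * a * t : ℝ) : AddCircle ℓ) :=
    (AddCircle.continuous_mk' ℓ).comp (by fun_prop)
  let h : AddCircle (1 : ℝ) → AddCircle ℓ := hh1.lift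
  have hh : Continuous h := continuous_quot_lift _ hh2
  have hht : ∀ t : ℝ, h (t : AddCircle (1 : ℝ)) = ((e * a * t : ℝ) : AddCircle ℓ) := fun t => rfl
  let F : C(AddCircle ℓ × AddCircle (1 : ℝ), M) :=
    ⟨fun p => C (p.1 + h p.2), hC.comp (continuous_fst.add (hh.comp continuous_snd))⟩
  let Ψ : AddCircle ℓ → LM M := fun θ => ContinuousMap.curry F θ
  have hΨ : Continuous Ψ := (ContinuousMap.curry F).continuous
  have hfn : ∀ θ t, fn (Ψ θ) t = C (θ + ((e * a * t : ℝ) : AddCircle ℓ)) := fun θ t => rfl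
  refine ⟨C, Ψ, hC, hΨ, ?_, hz, hfn, ?_⟩
  · intro θ θ' hθ
    induction θ using QuotientAddGroup.induction_on with
    | H b =>
      induction θ' using QuotientAddGroup.induction_on with
      | H b' =>
        have h1 : ∀ t, c (b + e * a * t) = c (b' + e * a * t) := by
          intro t
          have h2 := congrArg (fun g => fn g t) hθ
          simp only [hfn] at h2
          exact h2
        have h2 : Function.Periodic c (b' - b) := by
          intro u
          have h3 := h1 ((u - b) / (e * a))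
          rw [mul_div_cancel₀ _ hea] at h3
          rw [show u + (b' - b) = b' + (u - b) by ring, ← h3]
          congr 1
          ring
        obtain ⟨n, hn⟩ := hprime _ h2
        have e1 : b' = b + n * ℓ := by linarith
        change (b : AddCircle ℓ) = (b' : AddCircle ℓ)
        rw [e1, AddCircle.coe_add, hzm, add_zero]
  · ext g
    constructor
    · rintro ⟨θ, rfl⟩
      induction θ using QuotientAddGroup.induction_on with
      | H b =>
        refine ⟨b, fun t => ?_⟩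
        rw [hfn]
        change C ((b : AddCircle ℓ) + _) = _
        rw [← AddCircle.coe_add, hCc]
        congr 1
        ring
    · rintro ⟨b, hb⟩
      refine ⟨(b : AddCircle ℓ), ext_fn fun t => ?_⟩
      rw [hfn, hb, ← AddCircle.coe_add, hCc]
      congr 1
      ring

/-- the inverse of a continuous injection of a compact space is uniformly continuous -/
theorem exists_inv {X Y : Type} [MetricSpace X] [CompactSpace X] [MetricSpace Y] {Ψ : X → Y}
    (hΨ : Continuous Ψ) (hinj : Function.Injective Ψ) {ε : ℝ} (hε : 0 < ε) :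
    ∃ δ > 0, ∀ θ θ', dist (Ψ θ) (Ψ θ') < δ → dist θ θ' < ε := by
  have hS : IsCompact {p : X × X | ε ≤ dist p.1 p.2} :=
    (isClosed_le continuous_const (by fun_prop)).isCompact
  rcases Set.eq_empty_or_nonempty {p : X × X | ε ≤ dist p.1 p.2} with h0 | h0
  · refine ⟨1, one_pos, fun θ θ' _ => ?_⟩
    by_contra hcon
    have : (θ, θ') ∈ {p : X × X | ε ≤ dist p.1 p.2} := not_lt.1 hcon
    rw [h0] at this
    exact this
  · obtain ⟨p, hp, hmin⟩ := hS.exists_isMinOn h0
      (f := fun p : X × X => dist (Ψ p.1) (Ψ p.2))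
      ((hΨ.comp continuous_fst).dist (hΨ.comp continuous_snd)).continuousOn
    refine ⟨dist (Ψ p.1) (Ψ p.2), dist_pos.2 fun heq => ?_, fun θ θ' hlt => ?_⟩
    · have := hinj heq
      have hp' : ε ≤ dist p.1 p.2 := hp
      rw [this, dist_self] at hp'
      linarith
    · by_contra hcon
      have h3 : (θ, θ') ∈ {p : X × X | ε ≤ dist p.1 p.2} := not_lt.1 hcon
      exact absurd hlt (not_lt.2 (hmin h3))

/-- **One circle**, from the parametrisation. -/
theorem exL_psi {ℓ a v : ℝ} [Fact (0 < ℓ)] (ha : 0 < a) (hva : |v| = a)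
    (hz : ((v : ℝ) : AddCircle ℓ) = 0) {C : AddCircle ℓ → M} {Ψ : AddCircle ℓ → LM M}
    (hC : Continuous C) (hΨ : Continuous Ψ) (hinj : Function.Injective Ψ)
    (hfn : ∀ θ t, fn (Ψ θ) t = C (θ + ((v * t : ℝ) : AddCircle ℓ)))
    {q : ℕ} (hq : 1 ≤ q) {U : List M → k} (hU : CocL (univ : Set M) (q + 1) U) :
    ∃ N0 : ℕ, ∀ N ≥ N0, ExL (range Ψ) q (etaL N U) := by
  obtain ⟨β, -, εβ, hεβ, hβ⟩ : ExL (univ : Set (AddCircle ℓ)) (q + 1) fun l => U (l.map C) :=
    exL_addCircle (by omega) (cocL_pull hC hU)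
  have hE01 : ∀ θ : AddCircle ℓ, (fun p : AddCircle ℓ × ℝ => p.1 + ((v * p.2 : ℝ) : AddCircle ℓ))
      (θ, 1) = (fun p : AddCircle ℓ × ℝ => p.1 + ((v * p.2 : ℝ) : AddCircle ℓ)) (θ, 0) := by
    intro θ
    change θ + ((v * 1 : ℝ) : AddCircle ℓ) = θ + ((v * 0 : ℝ) : AddCircle ℓ)
    rw [mul_one, mul_zero, hz, AddCircle.coe_zero]
  have hEd : ∀ p r : AddCircle ℓ × ℝ, dist (p.1 + ((v * p.2 : ℝ) : AddCircle ℓ))
      (r.1 + ((v * r.2 : ℝ) : AddCircle ℓ)) ≤ dist p.1 r.1 + a * |p.2 - r.2| := by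
    intro p r
    have h1 : p.1 + ((v * p.2 : ℝ) : AddCircle ℓ) - (r.1 + ((v * r.2 : ℝ) : AddCircle ℓ)) =
        (p.1 - r.1) + ((v * (p.2 - r.2) : ℝ) : AddCircle ℓ) := by
      rw [mul_sub, AddCircle.coe_sub]
      abel
    have h2 : ‖((v * (p.2 - r.2) : ℝ) : AddCircle ℓ)‖ ≤ a * |p.2 - r.2| := by
      have h3 := QuotientAddGroup.norm_mk_le_norm (S := AddSubgroup.zmultiples ℓ)
        (m := v * (p.2 - r.2))
      rw [Real.norm_eq_abs, abs_mul, hva] at h3
      exact h3
    rw [dist_eq_norm, dist_eq_norm, h1]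
    exact (norm_add_le _ _).trans (by linarith)
  obtain ⟨N0, hN0⟩ := exists_nat_gt (a / (εβ / 2))
  refine ⟨N0, fun N hN => ?_⟩
  obtain ⟨δ, hδ, hδ'⟩ := exists_inv hΨ hinj (ε := εβ / 2) (by positivity)
  obtain ⟨Φ, hΦ⟩ : ∃ Φ : LM M → AddCircle ℓ, ∀ g ∈ range Ψ, Ψ (Φ g) = g :=
    ⟨Function.invFun Ψ, fun g hg => Function.invFun_eq hg⟩
  refine ⟨fun l => N929.fib (mesh k (1 / ((N : ℝ) + 1)) (N + 1))
    (fun L => β (L.map fun p : AddCircle ℓ × ℝ => p.1 + ((v * p.2 : ℝ) : AddCircle ℓ)))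
    (l.map Φ), fun h0 => absurd h0 (by omega), δ, hδ, fun l hl hs => ?_⟩
  have hlne : l.map Φ ≠ [] := by
    intro h0
    rw [List.map_eq_nil_iff] at h0
    rw [h0] at hl
    simp at hl
  have hlΨ : l = (l.map Φ).map Ψ := by
    rw [List.map_map]
    nth_rw 1 [← List.map_id l]
    exact List.map_congr_left fun g hg => (hΦ g (hs.1 g hg)).symm
  rw [N929.dl_map (fun l => N929.fib (mesh k (1 / ((N : ℝ) + 1)) (N + 1))
    (fun L => β (L.map fun p : AddCircle ℓ × ℝ => p.1 + ((v * p.2 : ℝ) : AddCircle ℓ))) l) Φ l,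
    dl_eL hE01 N β hlne]
  nth_rw 1 [hlΨ]
  rw [etaL, N929.fib_map]
  refine fib_congr (mesh_mem _ _) fun t ht L hL => ?_
  have hδ0 : (0 : ℝ) < 1 / ((N : ℝ) + 1) := by positivity
  have hLl : L.length = q + 1 + 1 := by
    obtain ⟨j, -, rfl⟩ := ht
    have := hL.1
    simp only [List.length_cons, List.length_nil, List.length_map] at this
    omega
  have e1 : ((L.map (Prod.map Ψ id)).map evl) =
      (L.map fun p : AddCircle ℓ × ℝ => p.1 + ((v * p.2 : ℝ) : AddCircle ℓ)).map C := by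
    rw [List.map_map, List.map_map]
    exact List.map_congr_left fun p _ => hfn p.1 p.2
  rw [e1]
  refine hβ _ (by rw [List.length_map, hLl]) ⟨fun _ _ => mem_univ _, ?_⟩
  intro x hx y hy
  obtain ⟨p, hp, rfl⟩ := List.mem_map.1 hx
  obtain ⟨r, hr, rfl⟩ := List.mem_map.1 hy
  obtain ⟨g, hg, hg1⟩ := List.mem_map.1 (hL.2 p hp).1
  obtain ⟨g', hg', hg2⟩ := List.mem_map.1 (hL.2 r hr).1
  have h1 : dist p.1 r.1 < εβ / 2 := by
    refine hδ' _ _ ?_
    rw [← hg1, ← hg2, hΦ g (hs.1 g hg), hΦ g' (hs.1 g' hg')]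
    exact hs.2 g hg g' hg'
  have h2 : a * |p.2 - r.2| < εβ / 2 := by
    have h3 := gr_mesh ht hL hp hr
    have h4 : a * |p.2 - r.2| ≤ a * (1 / ((N : ℝ) + 1)) := mul_le_mul_of_nonneg_left h3 ha.le
    have h5 : a * (1 / ((N : ℝ) + 1)) < εβ / 2 := by
      rw [mul_one_div, div_lt_iff₀ (by positivity)]
      rw [div_lt_iff₀ (by positivity)] at hN0
      have h6 : (N0 : ℝ) ≤ N := by exact_mod_cast hN
      nlinarith
    linarith
  exact (hEd p r).trans_lt (by linarith)

/-- **One circle.** -/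
theorem exL_one {ℓ a : ℝ} (hℓ : 0 < ℓ) (ha : 0 < a) {c : ℝ → M} (hc : Continuous c)
    (hper : Function.Periodic c ℓ) (hprime : ∀ p, Function.Periodic c p → ∃ m : ℤ, p = m * ℓ)
    {e : ℝ} (he : e = 1 ∨ e = -1) {q : ℕ} (hq : 1 ≤ q) {U : List M → k}
    (hU : CocL (univ : Set M) (q + 1) U) :
    IsCompact (Kc c e a) ∧ ∃ N0 : ℕ, ∀ N ≥ N0, ExL (Kc c e a) q (etaL N U) := by
  by_cases hne : (Kc c e a).Nonempty
  swap
  · refine ⟨?_, 0, fun N _ => exL_of_empty hne _ _⟩
    rw [Set.not_nonempty_iff_eq_empty.1 hne]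
    exact isCompact_empty
  haveI : Fact (0 < ℓ) := ⟨hℓ⟩
  obtain ⟨C, Ψ, hC, hΨ, hinj, hz, hfn, hr⟩ := exists_psi ha hc hper hprime he hne
  rw [← hr]
  refine ⟨isCompact_range hΨ, exL_psi ha ?_ hz hC hΨ hinj hfn hq hU⟩
  rw [abs_mul, abs_sgn he, one_mul, abs_of_pos ha]

end One

/-- **Row R4.** -/
theorem r4Goal : R4Goal := by
  intro M _ _ G k _ q U a Z hq hN hU ha hZ
  haveI := G.fin
  let sg : Bool → ℝ := fun b => if b then 1 else -1
  have hsg : ∀ b, sg b = 1 ∨ sg b = -1 := by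
    intro b
    cases b
    · exact Or.inr rfl
    · exact Or.inl rfl
  let K : Bool × G.ι → Set (LM M) := fun p => Kc (G.c p.2) (sg p.1) a
  have hKK : ∀ p, K p ⊆ G.KK (sg p.1) a := fun p g ⟨b, hb⟩ => ⟨p.2, b, hb⟩
  have hcont : ∀ j, Continuous (G.c j) := fun j => G.continuous_c j
  -- disjoint
  have hd : ∀ p r, p ≠ r → Disjoint (K p) (K r) := by
    intro p r hpr
    rw [Set.disjoint_left]
    rintro g ⟨b, hb⟩ ⟨b', hb'⟩
    by_cases h1 : p.1 = r.1
    · have h2 : p.2 ≠ r.2 := fun h2 => hpr (Prod.ext h1 h2)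
      refine h2 (G.inj _ _ ?_)
      have key : ∀ (e : ℝ) (he : e = 1 ∨ e = -1) (j : G.ι) (b : ℝ)
          (hb : ∀ t, fn g t = G.c j (e * a * t + b)), range (G.c j) = range (fn g) := by
        intro e he j b hb
        have hea : e * a ≠ 0 := by
          rcases he with rfl | rfl
          · simpa using ha.ne'
          · simpa using ha.ne'
        ext y
        constructor
        · rintro ⟨u, rfl⟩
          refine ⟨(u - b) / (e * a), ?_⟩
          rw [hb, mul_div_cancel₀ _ hea]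
          congr 1
          ring
        · rintro ⟨t, rfl⟩
          exact ⟨_, (hb t).symm⟩
      rw [key _ (hsg _) _ b hb, key _ (hsg _) _ b' hb']
    · have h2 : Disjoint (G.KK 1 a) (G.KK (-1) a) := disjoint_KK ha
      have hgp : g ∈ G.KK (sg p.1) a := ⟨p.2, b, hb⟩
      have hgr : g ∈ G.KK (sg r.1) a := ⟨r.2, b', hb'⟩
      rcases hp : p.1 with _ | _
      · rcases hr : r.1 with _ | _
        · exact h1 (hp.trans hr.symm)
        · rw [hp] at hgp
          rw [hr] at hgr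
          exact Set.disjoint_left.1 h2 hgr hgp
      · rcases hr : r.1 with _ | _
        · rw [hp] at hgp
          rw [hr] at hgr
          exact Set.disjoint_left.1 h2 hgp hgr
        · exact h1 (hp.trans hr.symm)
  have hone : ∀ p : Bool × G.ι, IsCompact (K p) ∧ ∃ N0 : ℕ, ∀ N ≥ N0,
      ExL (K p) q (etaL N U) := fun p =>
    exL_one (G.ℓ_pos p.2) ha (hcont p.2) (G.per p.2) (G.prime p.2) (hsg p.1) hq hU
  choose hKc N0 hN0 using hone
  obtain ⟨B, hB⟩ := (Set.finite_range N0).bddAbove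
  refine ⟨B, fun N hNB => ?_⟩
  have hall := exL_iUnion hKc (fun p => (hKc p).isClosed) hd hq
    fun p => hN0 p N ((hB ⟨p, rfl⟩).trans hNB)
  refine hall.mono fun g hg => ?_
  rcases hZ hg with ⟨j, b, h⟩ | ⟨j, b, h⟩
  · exact mem_iUnion.2 ⟨(true, j), b, h⟩
  · exact mem_iUnion.2 ⟨(false, j), b, h⟩

end Vale.Agent.P216.H313B
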